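import Vale.Agent.P290Z.BR.SpecA
import Vale.Agent.P268.Hol

/-! P290Z, block BR, step FIN: local lemmas. -/

open Set Filter Metric MeasureTheory
open scoped Topology Manifold ContDiff

namespace Vale.Agent.P290Z.BR.FinA

open Vale.Agent.P290 Vale.Agent.P290.H805

/-- an isolated singularity of a continuous function of two variables is removable -/
theorem removable {u : V2 → V2} {p : V2} (hc : ContinuousAt u p)
    (hd : ∀ᶠ z in 𝓝[≠] p, DifferentiableAt ℂ u z) : DifferentiableAt ℂ u p := by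
  obtain ⟨R, hR, h⟩ := Metric.eventually_nhds_iff.1 (eventually_nhdsWithin_iff.1 hd)
  have hG : DifferentiableOn ℂ (fun q : V2 × ℂ => (q.2 - q.1.2)⁻¹ • u (q.1.1, q.2))
      (ball p (R / 4) ×ˢ (ball p.2 R \ closedBall p.2 (R / 4))) := by
    rintro ⟨x, t⟩ ⟨hx, ht, ht'⟩
    simp only [mem_ball, mem_closedBall, not_le, Prod.dist_eq, max_lt_iff] at hx ht ht'
    have h1 : t - x.2 ≠ 0 := fun e => by
      rw [sub_eq_zero.1 e] at ht'; linarith [hx.2]
    have h2 : DifferentiableAt ℂ u (x.1, t) := by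
      refine h ?_ fun e => ?_
      · rw [Prod.dist_eq, max_lt_iff]; exact ⟨by linarith [hx.1], ht⟩
      · rw [show t = p.2 from congrArg Prod.snd e, dist_self] at ht'; linarith
    have h3 : DifferentiableAt ℂ (fun q : V2 × ℂ => u (q.1.1, q.2)) (x, t) :=
      DifferentiableAt.comp (f := fun q : V2 × ℂ => (q.1.1, q.2)) (x, t) h2 (by fun_prop)
    have h4 : DifferentiableAt ℂ (fun q : V2 × ℂ => (q.2 - q.1.2)⁻¹) (x, t) :=
      DifferentiableAt.fun_inv (by fun_prop) h1
    exact (h4.smul h3).differentiableWithinAt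
  have hI := P268.differentiableOn_circleIntegral (c := p.2) (R := R / 2) (by positivity)
    isOpen_ball (isOpen_ball.sdiff isClosed_closedBall) (fun t ht => by
      simp only [mem_sphere, Set.mem_sdiff, mem_ball, mem_closedBall, not_le] at ht ⊢
      constructor <;> linarith) hG
  have hb : ball p (R / 4) ∈ 𝓝 p := ball_mem_nhds _ (by positivity)
  refine ((hI.differentiableAt hb).const_smul (2 * Real.pi * Complex.I : ℂ)⁻¹).congr_of_eventuallyEq ?_
  filter_upwards [hb] with x hx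
  simp only [mem_ball, Prod.dist_eq, max_lt_iff] at hx
  have key : ∀ t ∈ closedBall p.2 (R / 2), (x.1, t) ≠ p → DifferentiableAt ℂ u (x.1, t) :=
    fun t ht hne => h (by
      rw [Prod.dist_eq, max_lt_iff]
      exact ⟨by linarith [hx.1], by linarith [mem_closedBall.1 ht]⟩) hne
  refine (Complex.two_pi_I_inv_smul_circleIntegral_sub_inv_smul_of_differentiable_on_off_countable
    (f := fun t => u (x.1, t)) (countable_singleton p.2) (w := x.2) (mem_ball.2 (by linarith [hx.2]))
    (fun t ht => ?_) fun t ht => ?_).symm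
  · refine ContinuousAt.continuousWithinAt (ContinuousAt.comp (f := fun t : ℂ => (x.1, t)) ?_
      (by fun_prop))
    by_cases e : (x.1, t) = p
    · rwa [e]
    · exact (key t ht e).continuousAt
  · exact DifferentiableAt.comp (f := fun t : ℂ => (x.1, t)) t
      (key t (ball_subset_closedBall ht.1) fun e => ht.2 (congrArg Prod.snd e)) (by fun_prop)

theorem preconn (p : V2) {r : ℝ} (hr : 0 < r) : IsPreconnected (ball p r \ {p}) := by
  have h1 : IsConnected ({0}ᶜ : Set V2) := isConnected_compl_singleton_of_one_lt_rank (by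
    rw [rank_prod', Complex.rank_real_complex]; norm_num) 0
  set e : OpenPartialHomeomorph V2 V2 := OpenPartialHomeomorph.univBall p r with he
  have hs : e.source = univ := OpenPartialHomeomorph.univBall_source p r
  have ht : e.target = ball p r := OpenPartialHomeomorph.univBall_target p hr
  have h0 : e 0 = p := OpenPartialHomeomorph.univBall_apply_zero p r
  have h2 : ball p r \ {p} = e '' {0}ᶜ := by
    refine Subset.antisymm (fun x hx => ⟨e.symm x, fun h => hx.2 ?_, e.right_inv (ht ▸ hx.1)⟩) ?_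
    · rw [← e.right_inv (ht ▸ hx.1 : x ∈ e.target), mem_singleton_iff.1 h, h0]; rfl
    · rintro _ ⟨x, hx, rfl⟩
      refine ⟨ht ▸ e.map_source (hs ▸ mem_univ x), fun h => hx ?_⟩
      exact e.injOn (hs ▸ mem_univ x) (hs ▸ mem_univ _) ((mem_singleton_iff.1 h).trans h0.symm)
  rw [h2]
  exact h1.isPreconnected.image _ (OpenPartialHomeomorph.continuous_univBall p r).continuousOn

/-- a countable cluster set is a point -/
theorem exists_lim {Y : Type} [TopologicalSpace Y] [T2Space Y] [CompactSpace Y] {v : V2 → Y}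
    {p : V2} (hv : ∀ᶠ z in 𝓝[≠] p, ContinuousAt v z)
    (hZ : {y | MapClusterPt y (𝓝[≠] p) v}.Countable) : ∃ y, Tendsto v (𝓝[≠] p) (𝓝 y) := by
  obtain ⟨y, hy⟩ : ∃ y, MapClusterPt y (𝓝[≠] p) v := exists_clusterPt_of_compactSpace _
  refine ⟨y, tendsto_nhds_of_unique_mapClusterPt fun y' hy' => by_contra fun hne => ?_⟩
  obtain ⟨ψ, h0, h1, -⟩ := exists_continuous_zero_one_of_isClosed (isClosed_singleton (x := y))
    (isClosed_singleton (x := y')) (disjoint_singleton.2 (Ne.symm hne))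
  have h0' : ψ y = 0 := h0 rfl
  have h1' : ψ y' = 1 := h1 rfl
  have key : Ioo (0 : ℝ) 1 ⊆ ψ '' {y | MapClusterPt y (𝓝[≠] p) v} := fun t ht => by
    have hf : ∃ᶠ z in 𝓝[≠] p, v z ∈ ψ ⁻¹' {t} := by
      refine frequently_iff.2 fun {U} hU => ?_
      obtain ⟨r, hr, h⟩ := Metric.mem_nhdsWithin_iff.1 (inter_mem hU hv)
      have hb : ball p r ∩ {p}ᶜ ∈ 𝓝[≠] p := inter_mem (mem_nhdsWithin_of_mem_nhds
        (ball_mem_nhds p hr)) self_mem_nhdsWithin
      obtain ⟨a, ha, ha'⟩ := ((hy.frequently (p := fun y => ψ y < t)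
        (ψ.continuous.continuousAt.eventually_lt continuousAt_const (h0' ▸ ht.1))).and_eventually
          hb).exists
      obtain ⟨b, hb1, hb'⟩ := ((hy'.frequently (p := fun y => t < ψ y)
        (continuousAt_const.eventually_lt ψ.continuous.continuousAt (h1' ▸ ht.2))).and_eventually
          hb).exists
      obtain ⟨z, hz, hz'⟩ := (preconn p hr).intermediate_value (f := fun z => ψ (v z)) ha' hb'
        (fun z hz => (ψ.continuous.continuousAt.comp (h hz).2).continuousWithinAt) ⟨ha.le, hb1.le⟩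
      exact ⟨z, (h hz).1, hz'⟩
    obtain ⟨a, ha, ha'⟩ := (isClosed_singleton.preimage ψ.continuous).isCompact
      |>.exists_mapClusterPt_of_frequently hf
    exact ⟨a, ha', ha⟩
  have := ((hZ.image ψ).mono key).measure_zero volume
  simp at this

theorem exists_isolated {X : Type} [TopologicalSpace X] [T2Space X] [CompactSpace X] {Ω : Set X}
    (hΩ : IsOpen Ω) (hc : Ωᶜ.Countable) (hne : Ωᶜ.Nonempty) :
    ∃ x, x ∉ Ω ∧ ∀ᶠ y in 𝓝[≠] x, y ∈ Ω := by
  have := isCompact_iff_compactSpace.1 hΩ.isClosed_compl.isCompact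
  have := hc.to_subtype
  have := hne.to_subtype
  obtain ⟨x, y, hy⟩ := nonempty_interior_of_iUnion_of_closed (X := ↥Ωᶜ) (f := fun x : ↥Ωᶜ => {x})
    (fun _ => isClosed_singleton) (iUnion_of_singleton _)
  obtain rfl : y = x := mem_singleton_iff.1 (interior_subset hy)
  obtain ⟨t, ht, ht'⟩ := (mem_nhds_subtype _ _ _).1 (mem_interior_iff_mem_nhds.1 hy)
  refine ⟨y, y.2, eventually_nhdsWithin_iff.2 (mem_of_superset ht fun z hz hzy => ?_)⟩
  by_contra hz'
  exact hzy (congrArg Subtype.val (ht' (a := ⟨z, hz'⟩) hz))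

variable {X X' : Type} [TopologicalSpace X] [ChartedSpace V2 X] [TopologicalSpace X']
  [ChartedSpace V2 X']

theorem hol_iff {f : X → X'} {x : X} :
    All.Hol f x ↔ MDifferentiableAt 𝓘(ℂ, V2) 𝓘(ℂ, V2) f x := by
  rw [mdifferentiableAt_iff, All.Hol]
  simp only [mfld_simps, differentiableWithinAt_univ]
  rfl

theorem Hol.congr {f g : X → X'} {x : X} (h : All.Hol f x) (e : g =ᶠ[𝓝 x] f) : All.Hol g x :=
  hol_iff.2 ((hol_iff.1 h).congr_of_eventuallyEq e)

omit [ChartedSpace V2 X] [ChartedSpace V2 X'] in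
theorem tendsto_chart (e : OpenPartialHomeomorph X X') {x : X} (hx : x ∈ e.source) :
    Tendsto e (𝓝[≠] x) (𝓝[≠] (e x)) := by
  refine tendsto_nhdsWithin_iff.2 ⟨(e.continuousAt hx).mono_left nhdsWithin_le_nhds, ?_⟩
  filter_upwards [mem_nhdsWithin_of_mem_nhds (e.open_source.mem_nhds hx), self_mem_nhdsWithin]
    with y hy hy' h using hy' (e.injOn hy hx h)

variable [IsManifold 𝓘(ℂ, V2) ω X] [IsManifold 𝓘(ℂ, V2) ω X']

theorem diff_chart {f : X → X'} (a : X) (b : X') {z : V2} (hz : z ∈ (chartAt V2 a).target)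
    (hb : f ((chartAt V2 a).symm z) ∈ (chartAt V2 b).source)
    (h : All.Hol f ((chartAt V2 a).symm z)) :
    DifferentiableAt ℂ (fun z => chartAt V2 b (f ((chartAt V2 a).symm z))) z :=
  mdifferentiableAt_iff_differentiableAt.1
    ((mdifferentiableAt_atlas (I := 𝓘(ℂ, V2)) (chart_mem_atlas V2 b) hb).comp z
      ((hol_iff.1 h).comp z (mdifferentiableAt_atlas_symm (chart_mem_atlas V2 a) hz)))

/-- the inverse function theorem -/
theorem loc_inv {F : X → X'} {Ω : Set X} (hΩ : IsOpen Ω) (hF : ∀ y ∈ Ω, All.Hol F y) {x : X}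
    (hx : x ∈ Ω) (hd : Det F x ≠ 0) : ∃ (N : Set X') (h : X' → X), IsOpen N ∧ F x ∈ N ∧
      h (F x) = x ∧ ∀ y ∈ N, All.Hol h y ∧ h y ∈ Ω ∧ F (h y) = y := by
  set e := chartAt V2 x with he
  set e' := chartAt V2 (F x) with he'
  set u : V2 → V2 := fun z => e' (F (e.symm z)) with hu
  have hxe : x ∈ e.source := mem_chart_source V2 x
  have hxe' : F x ∈ e'.source := mem_chart_source V2 (F x)
  have hA : IsOpen (e.target ∩ e.symm ⁻¹' (Ω ∩ F ⁻¹' e'.source)) :=
    e.isOpen_inter_preimage_symm (ContinuousOn.isOpen_inter_preimage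
      (fun y hy => (hF y hy).1.continuousWithinAt) hΩ e'.open_source)
  have hxA : e x ∈ e.target ∩ e.symm ⁻¹' (Ω ∩ F ⁻¹' e'.source) :=
    ⟨e.map_source hxe, by rw [mem_preimage, e.left_inv hxe]; exact ⟨hx, hxe'⟩⟩
  have h1 : ContDiffAt ℂ (1 : ℕ) u (e x) := (P268.contDiffOn_of_differentiableOn hA (fun z hz =>
    (diff_chart x (F x) hz.1 hz.2.2 (hF _ hz.2.1)).differentiableWithinAt) 1).contDiffAt
      (hA.mem_nhds hxA)
  have hd' : (fderiv ℂ u (e x)).det ≠ 0 := hd
  have h2 : HasFDerivAt u ((fderiv ℂ u (e x)).toContinuousLinearEquivOfDetNeZero hd' :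
      V2 →L[ℂ] V2) (e x) := by
    rw [ContinuousLinearMap.coe_toContinuousLinearEquivOfDetNeZero]
    exact (h1.differentiableAt (by simp)).hasFDerivAt
  have hn : ((1 : ℕ) : WithTop ℕ∞) ≠ 0 := by simp
  set v := h1.localInverse h2 hn with hv
  have hux : u (e x) = e' (F x) := by rw [hu]; simp only [e.left_inv hxe]
  have v1 : v (e' (F x)) = e x := hux ▸ h1.localInverse_apply_image h2 hn
  have v2 : ContDiffAt ℂ (1 : ℕ) v (e' (F x)) := hux ▸ h1.to_localInverse h2 hn
  have v3 : ∀ᶠ y in 𝓝 (e' (F x)), u (v y) = y :=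
    hux ▸ (h1.hasStrictFDerivAt' h2 hn).eventually_right_inverse
  have v4 : ∀ᶠ y in 𝓝 (e' (F x)), v y ∈ e.target ∩ e.symm ⁻¹' (Ω ∩ F ⁻¹' e'.source) :=
    v2.continuousAt.preimage_mem_nhds (hA.mem_nhds (v1 ▸ hxA))
  have v5 := (e'.continuousAt hxe').eventually ((v2.eventually (by simp)).and (v3.and v4))
  obtain ⟨N, hN, hNo, hxN⟩ := eventually_nhds_iff.1 (v5.and (e'.open_source.mem_nhds hxe'))
  refine ⟨N, fun y => e.symm (v (e' y)), hNo, hxN, by simp only [v1, e.left_inv hxe],
    fun y hy => ?_⟩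
  obtain ⟨⟨a1, a2, a3⟩, a4⟩ := hN y hy
  exact ⟨hol_iff.2 ((mdifferentiableAt_atlas_symm (I := 𝓘(ℂ, V2)) (chart_mem_atlas V2 x) a3.1).comp y
    ((a1.differentiableAt (by simp)).mdifferentiableAt.comp y
      (mdifferentiableAt_atlas (chart_mem_atlas V2 (F x)) a4))), a3.2.1, e'.injOn a3.2.2 a4 a2⟩

/-- removable singularities of maps of surfaces -/
theorem hol_of_cont {h : X → X'} {x : X} (hc : ContinuousAt h x)
    (hd : ∀ᶠ y in 𝓝[≠] x, All.Hol h y) : All.Hol h x := by
  set e := chartAt V2 x with he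
  have hxe : x ∈ e.source := mem_chart_source V2 x
  have h1 : Tendsto e.symm (𝓝[≠] (e x)) (𝓝[≠] x) := by
    have := tendsto_chart e.symm (e.map_source hxe)
    rwa [e.left_inv hxe] at this
  have h2 : ContinuousAt (fun z => h (e.symm z)) (e x) :=
    ContinuousAt.comp_of_eq hc (e.continuousAt_symm (e.map_source hxe)) (e.left_inv hxe)
  refine ⟨hc, removable (ContinuousAt.comp_of_eq ((chartAt V2 (h x)).continuousAt
    (mem_chart_source V2 (h x))) h2 (by rw [e.left_inv hxe])) ?_⟩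
  filter_upwards [h1.eventually hd, mem_nhdsWithin_of_mem_nhds (e.open_target.mem_nhds
    (e.map_source hxe)), (h1.mono_right nhdsWithin_le_nhds).eventually (hc.preimage_mem_nhds
      ((chartAt V2 (h x)).open_source.mem_nhds (mem_chart_source V2 (h x))))] with z a1 a2 a3
  exact diff_chart x (h x) a2 a3 a1

end Vale.Agent.P290Z.BR.FinA
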